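import Vale.Agent.P043.Core.Defs

/-!
P043 core, encoding: the odd part is a family.
-/

namespace Vale.Agent.P043.Core.Encode

/-- The odd part of an integer, with value `1` at zero. -/
def oddPart (k : ℤ) : ℤ :=
  if k = 0 then 1 else if 2 ∣ k then oddPart (k / 2) else k
termination_by k.natAbs
decreasing_by omega

theorem oddPart_zero : oddPart 0 = 1 := by
  rw [oddPart]; simp

theorem oddPart_odd {k : ℤ} (h : ¬ 2 ∣ k) : oddPart k = k := by
  have hk : k ≠ 0 := by omega
  rw [oddPart, if_neg hk, if_neg h]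

theorem oddPart_two_mul (k : ℤ) : oddPart (2 * k) = oddPart k := by
  rcases eq_or_ne k 0 with rfl | hk
  · simp
  · rw [oddPart, if_neg (by omega), if_pos (dvd_mul_right 2 k)]
    simp

/-- The state of a point: divide both coordinates by two while possible. -/
theorem exists_state (m n : ℤ) : ∃ a b : ℤ, ¬ (2 ∣ a ∧ 2 ∣ b) ∧
    (∀ j : ℤ, oddPart (m + j * n) = oddPart (a + j * b) ∨ (m = 0 ∧ n = 0 ∧ a = 1 ∧ b = 0)) ∧
    (¬ (2 ∣ m ∧ 2 ∣ n) → a = m ∧ b = n) := by
  induction h : m.natAbs + n.natAbs using Nat.strong_induction_on generalizing m n with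
  | _ N IH =>
    by_cases he : 2 ∣ m ∧ 2 ∣ n
    · by_cases h0 : m = 0 ∧ n = 0
      · exact ⟨1, 0, by omega, fun j => Or.inr ⟨h0.1, h0.2, rfl, rfl⟩, fun hne => absurd he hne⟩
      · obtain ⟨⟨m', rfl⟩, ⟨n', rfl⟩⟩ := he
        obtain ⟨a, b, hab, hj, -⟩ := IH (m'.natAbs + n'.natAbs) (by omega) m' n' rfl
        refine ⟨a, b, hab, fun j => Or.inl ?_, fun hne =>
          absurd ⟨dvd_mul_right 2 m', dvd_mul_right 2 n'⟩ hne⟩
        rcases hj j with hj' | ⟨h1, h2, -⟩
        · rw [show 2 * m' + j * (2 * n') = 2 * (m' + j * n') by ring, oddPart_two_mul, hj']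
        · omega
    · exact ⟨m, n, he, fun j => Or.inl rfl, fun _ => ⟨rfl, rfl⟩⟩

theorem isFamily_oddPart : IsFamily fun _ k => oddPart k := by
  intro m n
  obtain ⟨a, b, hab, hj, hpar⟩ := exists_state m n
  refine ⟨a, b, ⟨hab, fun j => ?_⟩, fun hne => ?_⟩
  · have hv : oddPart (m + (j : ℤ) * n) = oddPart (a + (j : ℤ) * b) := by
      rcases hj (j : ℤ) with h | ⟨rfl, rfl, rfl, rfl⟩
      · exact h
      · simp [oddPart_zero, oddPart_odd (k := 1) (by omega)]
    refine ⟨fun h => ?_, fun h2 h4 => ?_⟩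
    · simp only [hv, oddPart_odd h, sub_self, dvd_zero]
    · obtain ⟨q, hq⟩ := h2
      have hq' : ¬ 2 ∣ q := by omega
      have he : oddPart (a + (j : ℤ) * b) = (a + (j : ℤ) * b) / 2 := by
        rw [hq, oddPart_two_mul, oddPart_odd hq']; omega
      simp only [hv, he, sub_self, dvd_zero]
  · obtain ⟨rfl, rfl⟩ := hpar hne
    simp

end Vale.Agent.P043.Core.Encode
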